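import Vale.Agent.P181.TL.DefsP

set_option autoImplicit false

/-!
# P181, TR: `r ≥ 2` label rows and an arbitrary tail, `b ≥ 5 a`: the literals

`lam : Fin (k + 1 + r + 1) → ℕ`: row one, `r` label rows, `k + 1` rows of the tail. `tl lam` are the
rows below row one. The labels of a letter are monomials in the `r` label rows; the heads of the
group `l` carry the row `l`. Labels and contents of the letters are read off at the point where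
the heads of the group `l` are the unit vector `l`.
-/

open MvPolynomial

namespace Vale.Agent.P181.TR

open Vale.Agent.P181.T4 (HW)
open Vale.Agent.P181.H280 (plethMult)
open Vale.Agent.P181.SZ
open Vale.Agent.P181.TL (KK)

/-- The label row `l`. -/
def tp {k r : ℕ} (mu : Fin (k + 1 + r) → ℕ) (l : Fin r) : ℕ := mu ⟨l, by omega⟩

/-- The tail. -/
def ta {k r : ℕ} (mu : Fin (k + 1 + r) → ℕ) (i : Fin (k + 1)) : ℕ := mu ⟨r + i, by omega⟩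

/-- The boxes below row two. -/
def D2 {n : ℕ} (lam : Fin n → ℕ) : ℕ := ∑ i : Fin n, if 2 ≤ (i : ℕ) then lam i else 0

open scoped Classical in
/-- **(R1)** the lift with `r` label rows. `x j = (labels, content)` of the letter `j`. -/
def LiftR : Prop := ∀ (k r : ℕ) (ι η : Type) [Fintype ι] [Fintype η] (s : ι → ℕ) (p : η → ℕ)
  (g : η → Fin r) (mu : Fin (k + 1 + r) → ℕ) (KS : Finset (ι → (Fin r → ℕ) × ℕ)),
  (∀ j h, s j < p h) → (∀ h h', p h = p h' → g h = g h') →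
  (∀ l l' : Fin r, l ≤ l' → tp mu l' ≤ tp mu l) →
  (∀ x ∈ KS, ∀ j, ∑ l, (x j).1 l + (x j).2 = s j) →
  (∀ x ∈ KS, ∀ l, ∑ j, (x j).1 l + ∑ h ∈ Finset.univ.filter (fun h => g h = l), p h = tp mu l) →
  (∀ x ∈ KS, ∑ j, (x j).2 = ∑ i, ta mu i) →
  (∀ x ∈ KS, ∀ l, ∑ j, ∑ l', (x j).1 l' + ta mu 0 ≤ tp mu l) →
  (∀ x ∈ KS, ∀ x' ∈ KS, ∀ j j', s j = s j' → j ≠ j' → x j ≠ x' j') →
  ∑ x ∈ KS, Module.finrank ℂ (KK (k + 1) ι (fun j => (x j).2) (ta mu)) ≤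
    Module.finrank ℂ (PK (k + 1 + r) (ι ⊕ η) (Sum.elim s p) mu)

/-- **(R2)** the labels and contents, pure numbers. -/
def KeyR : Prop := ∀ (a q m Y r t : ℕ), 0 < a → 2 ≤ q → 1 ≤ m → 1 ≤ Y → 2 ≤ r →
  ∃ (KS : Finset (Fin a × Fin q → (Fin r → ℕ) × ℕ)) (T : Fin r → ℕ),
    (∀ x ∈ KS, ∀ j : Fin a × Fin q, ∑ l, (x j).1 l + (x j).2 =
      t / a / q + 2 + q * Y * (m + r) + 1 + q * ((j.1 : ℕ) / m) + (j.2 : ℕ)) ∧
    (∀ x ∈ KS, ∀ l, ∑ j, (x j).1 l = T l) ∧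
    (∀ x ∈ KS, ∀ i : Fin a, ∑ p, (x (i, p)).2 = t / a + if (i : ℕ) < t % a then 1 else 0) ∧
    (∀ x ∈ KS, ∀ x' ∈ KS, ∀ j j' : Fin a × Fin q, (j.1 : ℕ) / m = (j'.1 : ℕ) / m → j.2 = j'.2 →
      j ≠ j' → x j ≠ x' j') ∧
    Y ^ ((q - 1) * (r - 1) * a) ≤ KS.card

open scoped Classical in
/-- **(R3)** the heads, pure numbers: `r` disjoint windows of sizes above `a / 2`. -/
def HeadR : Prop := ∀ (a r U : ℕ) (P : Fin r → ℕ), 16 * (r + 1) ≤ a → 2 * (U + 1) ≤ a →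
  (∀ l, 8 * (r + 1) * a ≤ P l) →
  ∃ (H : ℕ) (p : Fin H → ℕ) (g : Fin H → Fin r), (∀ h, U < p h) ∧ (∀ h, p h ≤ a) ∧
    (∀ h h', p h = p h' → g h = g h') ∧
    (∀ l, ∑ h ∈ Finset.univ.filter (fun h => g h = l), p h = P l) ∧ a * H ≤ 2 * ∑ l, P l

/-- **(R4)** lower bound (from `RefB`, R1, R2, R3, `LowerS`, `TransS`). -/
def LowR : Prop := ∀ (a b k r q m Y t : ℕ) (lam : Fin (k + 1 + r + 1) → ℕ) (f : Fin a → ℕ),
  ∑ i, lam i = a * b → Antitone lam → 0 < a → 2 ≤ q → 1 ≤ m → 1 ≤ Y → 2 ≤ r → 16 * (r + 1) ≤ a →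
  t = ∑ i, ta (tl lam) i → (∀ i : Fin a, f i = t / a + if (i : ℕ) < t % a then 1 else 0) →
  2 * (t / a / q + 2 + q * Y * (m + r) + q * (a / m) + q + 1) ≤ a →
  (∀ l : Fin r, q * a * (q * Y * (m + r) + q * (a / m) + q + 3) + 8 * (r + 1) * a +
    ta (tl lam) 0 ≤ tp (tl lam) l) →
  3 * q * a * a + 6 * ∑ i, tl lam i ≤ a * b →
  Y ^ ((q - 1) * (r - 1) * a) * Module.finrank ℂ (KK (k + 1) (Fin a) f (ta (tl lam))) ≤
    plethMult b a (k + 1 + r + 1) lam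

/-- **(R5)** upper bound (from `UpB` and `r - 1` further rows). -/
def UpR : Prop := ∀ (a b k r : ℕ) (lam : Fin (k + 1 + r + 1) → ℕ), 1 ≤ a → 1 ≤ r →
  plethMult a b (k + 1 + r + 1) lam ≤
    (a + b).choose a * ((D2 lam + a - 1).choose (a - 1)) ^ (r - 1) *
      Module.finrank ℂ (HW (k + 1) (Fin a) (ta (tl lam)))

/-- **(R6)** growth, pure numbers. -/
def GrowR : Prop := ∀ (a b q r Y t D : ℕ), 0 < a → 5 ≤ q → 2 ≤ r → 1 ≤ Y → b ≤ D + a → t ≤ D →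
  27 * (2 * a + D) ^ 3 ≤ a ^ 3 * Y ^ 4 →
  (a + b).choose a * ((D + a - 1).choose (a - 1)) ^ (r - 1) * (a + t - 1).choose t ≤
    Y ^ ((q - 1) * (r - 1) * a)

/-- **(R7)** the core, `q = 5 + 16 t / a ^ 2`; the label rows are cut down by the semigroup. -/
def CoreR : Prop := ∀ (a b k r q m Y t G : ℕ) (lam : Fin (k + 1 + r + 1) → ℕ),
  ∑ i, lam i = a * b → Antitone lam → 2 ≤ r → 16 * (r + 1) ≤ a → t = ∑ i, ta (tl lam) i →
  q = 5 + 16 * t / a ^ 2 → 8 * q ≤ m → 40 * q ≤ a → 1 ≤ Y → 16 * (q * Y * (m + r)) ≤ a →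
  G = q * a * (q * Y * (m + r) + q * (a / m) + q + 3) + 8 * (r + 1) * a →
  (∀ l : Fin r, G + ta (tl lam) 0 ≤ tp (tl lam) l) →
  b ≤ D2 lam + a → 27 * (2 * a + D2 lam) ^ 3 ≤ a ^ 3 * Y ^ 4 →
  tl lam 0 + 3 * q * a ^ 2 + 10 * D2 lam + 5 * a * r * (r + 1) ≤ lam 0 →
  plethMult a b (k + 1 + r + 1) lam ≤ plethMult b a (k + 1 + r + 1) lam

/-- **(R8)** final form: a gap of `a ^ 2 / polylog` below one of the first `polylog` rows. -/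
def TwoLongR : Prop := ∀ C₀ c₀ : ℝ, 0 < C₀ → 0 ≤ c₀ → ∃ C c : ℝ, 0 < C ∧ 0 < c ∧
  ∀ (a b k r : ℕ) (lam : Fin (k + 1 + r + 1) → ℕ), Antitone lam → ∑ i, lam i = a * b → 0 < a →
  2 ≤ r → (r : ℝ) ≤ C₀ * (1 + Real.log a) ^ c₀ →
  (∀ l : Fin r, (a : ℝ) ^ 2 ≤
    C₀ * (1 + Real.log a) ^ c₀ * ((tp (tl lam) l : ℝ) - ta (tl lam) 0)) →
  C * (1 + Real.log a) ^ c * a ≤ D2 lam →
  tl lam 0 + 60 * D2 lam + 17 * a ^ 2 ≤ lam 0 →
  plethMult a b (k + 1 + r + 1) lam ≤ plethMult b a (k + 1 + r + 1) lam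

/-- **(R9)** the union (from `FatLog`, `LinS`, `PLX`, `TwoLongPA`, R8, `FewBelowRowTwo`): every
shape with a dominating first row, `b ≥ 5 a`. -/
def TLX : Prop := ∃ (C : ℝ) (c : ℕ), 0 < C ∧ ∀ a b : ℕ, 5 * a ≤ b → ∀ (n : ℕ) (lam : Fin n → ℕ),
  (∀ h : 1 < n, lam ⟨1, h⟩ + 60 * D2 lam + 17 * a ^ 2 ≤ lam ⟨0, by omega⟩) →
  (C * (1 + Real.log a) ^ c * a ≤ D2 lam ∨ a + D2 lam ≤ b + 1) →
  plethMult a b n lam ≤ plethMult b a n lam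

end Vale.Agent.P181.TR
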